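import Mathlib
import Vale.Agent.P262.Steinitz

namespace Vale.Agent.Results.P262.SqrtD

theorem result : ∃ C : ℝ, ∀ (d N : ℕ) (v : Fin N → EuclideanSpace ℝ (Fin d)),
    (∀ i, ‖v i‖ ≤ 1) →
    (∃ ε : Fin N → ℝ, (∀ i, ε i = 1 ∨ ε i = -1) ∧
      ∀ k : ℕ, ‖∑ i ∈ Finset.univ.filter (fun i : Fin N => i.val < k), ε i • v i‖
        ≤ C * Real.sqrt d) ∧
    (∑ i, v i = 0 → ∃ π : Equiv.Perm (Fin N),
      ∀ k : ℕ, ‖∑ i ∈ Finset.univ.filter (fun i : Fin N => i.val < k), v (π i)‖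
        ≤ C * Real.sqrt d) := by
  obtain ⟨K, hK⟩ := Vale.Agent.P262.signs_fin
  exact ⟨K, fun d N v hv => ⟨hK d N v hv, fun h0 =>
    Vale.Agent.P262.transfer v h0 _ fun π => hK d N (fun i => v (π i)) fun i => hv _⟩⟩

end Vale.Agent.Results.P262.SqrtD
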